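import Vale.Agent.P011LY.Mu
import Vale.Agent.P011LX.Brg
import Vale.Agent.P011LX.Ext

/-!
The change of coordinates between the two normal forms.
-/

open Matrix

namespace Vale.Agent.P011LY

open Vale.Agent.P011L Vale.Agent.P011LD Vale.Agent.P011LE Vale.Agent.P011.D4 Vale.Agent.P011.E6
  Vale.Agent.P011.MPQ
open Vale.Agent.P011LX (ANF ANFB map_mv st_in st_out gen_in out_in)

variable {k K : Type} [Field k] [Field K] [Algebra k K] {a b c : kˣ} {α γ : K} {σ : K ≃ₐ[k] K}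

open Classical in
/-- The descent data of the quaternion algebra. -/
noncomputable def jj (α : K) (b : Kˣ) (σ : K ≃ₐ[k] K) : GL (Fin 2) K := if σ α = α then 1 else jq b

theorem mu_qmap (hα : σ (α ^ 2) = α ^ 2) (q : Qt (up K a) (up K b)) :
    (jj α (up K b) σ).1 * (mu α q).map σ = mu α (qmap σ q) * (jj α (up K b) σ).1 := by
  by_cases h : σ α = α
  · rw [jj, if_pos h]
    ext i j
    fin_cases i <;> fin_cases j <;> simp [mu, qmap, h]
  · rw [map_pow, sq_eq_sq_iff_eq_or_eq_neg] at hα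
    rw [jj, if_neg h]
    ext i j
    fin_cases i <;> fin_cases j <;>
      simp [mu, qmap, jq, hα.resolve_left h, mul_apply] <;> ring

theorem om_cg (h : Matrix (Fin 2) (Fin 2) K) : h * om * hᵀ = h.det • om := by
  ext i j
  fin_cases i <;> fin_cases j <;> simp [om, mul_apply, det_fin_two] <;> ring

theorem om_map : (om : Matrix _ _ K).map σ = om := by
  ext i j
  fin_cases i <;> fin_cases j <;> simp [om]

theorem mat_amap (x : AlbL K a b c) (i j : Fin 3) : (amap σ x).mat i j = qmap σ (x.mat i j) := by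
  have e (t : K) : algebraMap K (Qt (up K a) (up K b)) (σ t) = qmap σ (algebraMap K _ t) :=
    QuaternionAlgebra.ext rfl (map_zero σ).symm (map_zero σ).symm (map_zero σ).symm
  fin_cases i <;> fin_cases j
  exacts [e _, rfl, (qmap_star σ _).symm, (qmap_star σ _).symm, e _, rfl, rfl,
    (qmap_star σ _).symm, e _]

theorem vec_amap (x : AlbL K a b c) (i : Fin 3) : (amap σ x).vec i = qmap σ (x.vec i) := by
  fin_cases i <;> rfl

theorem mv_one {a b c : Kˣ} {u : Fin 3 → K} (n : ∀ i, u i ≠ 0) {g : Fin 3 → Kˣ}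
    (hg : ∀ i, (g i : K) = u 0 / u i) (y : Alb a b c) :
    (∀ i j, ((u 1 * u 2 / u 0) • Alb.wt g y).mat i j =
      (u 0 * u 1 * u 2 / (u i * u j)) • y.mat i j) ∧
    ∀ i, ((u 1 * u 2 / u 0) • Alb.wt g y).vec i = u i • y.vec i := by
  have n0 := n 0
  have n1 := n 1
  have n2 := n 2
  refine ⟨fun i j => ?_, fun i => ?_⟩
  · fin_cases i <;> fin_cases j <;> apply QuaternionAlgebra.ext <;>
      simp [Alb.mat, Alb.wt, hg, -QuaternionAlgebra.coe_mul, -QuaternionAlgebra.coe_pow, -map_mul,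
        -map_pow, -mul_eq_mul_right_iff, -mul_eq_mul_left_iff, -mul_eq_zero] <;> field_simp
  · fin_cases i <;> apply QuaternionAlgebra.ext <;> simp [Alb.vec, Alb.wt, hg] <;> field_simp

theorem mv_rot {a b c : Kˣ} {u : Fin 3 → K} (n : ∀ i, u i ≠ 0) (hu : u 0 = u 1) {e : Kˣ}
    (he : (e : K) = u 2 / u 0) (y z : Alb a b c) (h : z = u 0 •
      ⟨(e⁻¹ : Kˣ) * y.d3, (e : K) * y.d1, (e : K) * y.d2, (e : K) • y.x3, y.x1, y.x2⟩) :
    (∀ i j, z.mat (finRotate 3 i) (finRotate 3 j) =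
      (u 0 * u 1 * u 2 / (u i * u j)) • y.mat i j) ∧
    ∀ i, z.vec (finRotate 3 i) = u i • y.vec i := by
  have n1 := n 1
  have n2 := n 2
  refine ⟨fun i j => ?_, fun i => ?_⟩
  · fin_cases i <;> fin_cases j <;> apply QuaternionAlgebra.ext <;>
      simp [Alb.mat, h, he, hu, -QuaternionAlgebra.coe_mul, -QuaternionAlgebra.coe_pow, -map_mul,
        -map_pow, -mul_eq_mul_right_iff, -mul_eq_mul_left_iff, -mul_eq_zero] <;> field_simp
  · fin_cases i <;> apply QuaternionAlgebra.ext <;> simp [Alb.vec, h, he, hu] <;> field_simp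

theorem kr_mul (d d' : GL (Fin 3) K) (h h' : GL (Fin 2) K) :
    kr d h * kr d' h' = kr (d * d') (h * h') := Units.ext (mul_kronecker_mul _ _ _ _).symm

variable [CharZero K]

/-- The action on the coordinates. -/
noncomputable def Q (d : GL (Fin 3) K) (α γ : K) (b : Kˣ) (σ : K ≃ₐ[k] K) : R K :=
  io (kr d (it (jj α b σ))) ((σ γ / γ) • (jj α b σ).1) (d.1.det / (jj α b σ).1.det)

theorem Q_eq {d : GL (Fin 3) K} {π : Equiv.Perm (Fin 3)} {u : Fin 3 → K} (hd : d.1 = mono π u)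
    (hα : σ (α ^ 2) = α ^ 2) (h0 : γ ≠ 0) (hγ : σ (γ ^ 2) = γ ^ 2) {x x' : AlbL K a b c}
    (h1 : ∀ i j, x'.mat (π i) (π j) = (d.1.det / (u i * u j)) • (amap σ x).mat i j)
    (h2 : ∀ i, x'.vec (π i) = u i • (amap σ x).vec i) :
    Q d α γ (up K b) σ (sg σ (fi α γ x)) = fi α γ x' := by
  have j0 : (jj α (up K b) σ).1.det ≠ 0 := (isUnits_det_units _).ne_zero
  refine blk_ext π (fun i j => ?_) fun i => ?_
  · have e : bA (sg σ (fi α γ x)) i j = (mu α (x.mat i j) * om).map σ := rfl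
    rw [Q, bA_io hd, e, map_mul', om_map, ← mul_assoc, mu_qmap hα, bA_fi, h1, mat_amap, mu_smul,
      mul_assoc (mu _ _), mul_assoc (mu _ _), om_cg, mul_smul_comm, smul_smul, smul_mul_assoc]
    congr 1
    rw [div_right_comm, div_mul_cancel₀ _ j0]
  · have e : bw (sg σ (fi α γ x)) i = (γ • mu α (x.vec i)).map σ := rfl
    rw [Q, bw_io hd, e, P011LD.map_smul', smul_mul_assoc, mul_smul_comm, mu_qmap hα, smul_mul_assoc,
      smul_mul_assoc, Units.mul_inv_cancel_right, bw_fi, h2, vec_amap, mu_smul, smul_comm γ,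
      smul_smul (σ γ / γ)]
    rw [map_pow] at hγ
    rw [div_mul_eq_mul_div, ← sq, hγ, sq, mul_div_cancel_right₀ _ h0]

theorem Q_one {d : GL (Fin 3) K} {u : Fin 3 → K} (hd : d.1 = mono 1 u)
    (hα : σ (α ^ 2) = α ^ 2) (h0 : γ ≠ 0) (hγ : σ (γ ^ 2) = γ ^ 2) {g : Fin 3 → Kˣ}
    (hg : ∀ i, (g i : K) = u 0 / u i) (x : AlbL K a b c) :
    Q d α γ (up K b) σ (sg σ (fi α γ x)) =
      fi α γ ((u 1 * u 2 / u 0) • Alb.wt g (amap σ x)) := by
  have e : d.1.det = u 0 * u 1 * u 2 := by simp [hd, det_fin_three, mono]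
  have h := mv_one (mono_ne hd) hg (amap σ x)
  exact Q_eq hd hα h0 hγ (e ▸ h.1) h.2

theorem Q_rot {d : GL (Fin 3) K} {u : Fin 3 → K} (hd : d.1 = mono (finRotate 3) u)
    (hα : σ (α ^ 2) = α ^ 2) (h0 : γ ≠ 0) (hγ : σ (γ ^ 2) = γ ^ 2) (hu : u 0 = u 1) {e : Kˣ}
    (he : (e : K) = u 2 / u 0) (x : AlbL K a b c) :
    Q d α γ (up K b) σ (sg σ (fi α γ x)) = fi α γ (u 0 • P011.E6H.ph σ e x) := by
  have e1 : d.1.det = u 0 * u 1 * u 2 := by
    simp [hd, det_fin_three, mono]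
    ring
  have h := mv_rot (mono_ne hd) hu he (amap σ x) (u 0 • P011.E6H.ph σ e x) rfl
  exact Q_eq hd hα h0 hγ (e1 ▸ h.1) h.2

variable {o : (K ≃ₐ[k] K) →* ℤˣ} {p : (K ≃ₐ[k] K) → GL I K}
  {π : (K ≃ₐ[k] K) →* Equiv.Perm (Fin 3)} {u : (K ≃ₐ[k] K) → Fin 3 → K}
  {d : (K ≃ₐ[k] K) → GL (Fin 3) K} {m : GL I K} {β : Kˣ}

theorem nf_in (h : NF o p d α γ β m) (hσ : o σ = 1) : ∃ t : K, ∀ x y, co y = m.1 *ᵥ x →
    m.1 *ᵥ ((p σ).1 *ᵥ (σ ∘ x)) = co (t • Q (d σ) α γ β σ (sg σ y)) := by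
  obtain ⟨t, ht⟩ := h.eq σ
  have e : hq o α β σ = jj α β σ := by rw [hq, if_pos hσ, mul_one, jj]
  rw [e, hσ, Units.val_one, Int.cast_one, one_mul] at ht
  refine ⟨t, fun x y hy => ?_⟩
  rw [← LinearMap.smul_apply, Q, ← ht, co_E, co_sg, hy, RingHom.coe_coe, map_mv, ← st_in hσ,
    mulVec_mulVec, mulVec_mulVec, ← Units.val_mul, ← Units.val_mul, inv_mul_cancel_right]

theorem nf_out (h : NF o p d α γ β m) (hσ : o σ ≠ 1) : ∃ t : K, t ≠ 0 ∧ ∀ y,
    (m * p σ * (st o σ m)⁻¹).1 *ᵥ co (sg σ (WW y)) = co (t • Q (d σ) α γ β σ (sg σ y)) := by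
  obtain ⟨t, ht⟩ := h.eq σ
  have e : hq o α β σ = jj α β σ * wq := by rw [hq, if_neg hσ, jj]
  have e1 : (wq : GL (Fin 2) K).1.det = 1 := by simp [wq]
  refine ⟨t, fun e0 => ?_, fun y => ?_⟩
  · rw [e0, zero_smul, map_eq_zero_iff _ E.injective] at ht
    exact Units.ne_zero _ ht
  rw [← co_E, ht, LinearMap.smul_apply, ← WW_sg _ y, ← Module.End.mul_apply, Q, WW, io_mul, kr_mul,
    ← map_mul, mul_one, mul_one, e, (Int.units_eq_one_or _).resolve_left hσ, Units.val_mul,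
    det_mul, e1, mul_one]
  simp

omit [CharZero K]

open Classical in
theorem mon_rel (h : Mon o p π u d) (σ τ : K ≃ₐ[k] K) : ∃ z : K, z ≠ 0 ∧ ∀ j,
    u σ (π τ j) * (if o σ = 1 then σ (u τ j) else (σ (u τ j))⁻¹) = z * u (σ * τ) j := by
  obtain ⟨z, -, hz⟩ := h.cmp.mul σ τ
  refine ⟨z, P011LX.ne_of_smul hz, fun j => ?_⟩
  have := congrFun (congrFun hz (π σ (π τ j))) j
  split_ifs with e
  · rw [Units.val_mul, st_in e] at this
    simpa [h.val, mono, mul_apply, apply_ite σ] using this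
  · rw [Units.val_mul, st_out e, mono_inv (h.val τ)] at this
    simpa [h.val, mono, mul_apply, apply_ite σ] using this

theorem mon_r1 (h : Mon o p π u d) (σ : K ≃ₐ[k] K) {τ : K ≃ₐ[k] K} (h1 : o τ = 1) (h2 : π τ = 1) :
    ∃ z : K, z ≠ 0 ∧ ∀ j, u (σ * τ) j = z * u σ j := by
  obtain ⟨z, z0, hz⟩ := mon_rel h σ τ
  have n (ρ) := mono_ne (h.val ρ)
  refine ⟨u (σ * τ) 0 / u σ 0, div_ne_zero (n _ _) (n _ _), fun j => ?_⟩
  have a1 := hz j
  have a2 := hz 0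
  rw [h2, Equiv.Perm.one_apply] at a1 a2
  rw [h.sc τ h1 h2 j] at a1
  rw [div_mul_eq_mul_div, eq_div_iff (n _ _)]
  refine mul_left_cancel₀ z0 ?_
  linear_combination u σ j * a2 - u σ 0 * a1

theorem mon_r2 (h : Mon o p π u d) (σ : K ≃ₐ[k] K) {τ : K ≃ₐ[k] K} (h1 : o τ = 1) (h2 : π τ = 1)
    (i j : Fin 3) : τ (u σ i / u σ j) = u σ i / u σ j := by
  obtain ⟨z, z0, hz⟩ := mon_rel h τ σ
  obtain ⟨z', z1, hz'⟩ := mon_r1 h σ (τ := σ⁻¹ * τ * σ) (by simp [h1]) (by simp [h2])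
  have n (ρ) := mono_ne (h.val ρ)
  simp only [h1, if_true, h.sc τ h1 h2 (π σ _), show τ * σ = σ * (σ⁻¹ * τ * σ) by group, hz'] at hz
  rw [map_div₀, div_eq_div_iff ((map_ne_zero τ).2 (n _ _)) (n _ _)]
  refine mul_left_cancel₀ (n τ 0) ?_
  linear_combination u σ j * hz i - u σ i * hz j

theorem mon_r3 (h : Mon o p π u d) {s : K ≃ₐ[k] K} (h1 : o s ≠ 1) (h2 : π s = 1)
    (h3 : π σ = 1) (i j : Fin 3) : σ (u s i / u s j) = u s i / u s j := by
  by_cases e : o σ = 1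
  · exact mon_r2 h s e h3 i j
  rw [← mul_inv_cancel_left s σ, AlgEquiv.mul_apply, mon_r2 h s (out_in h1 e) (by simp [h2, h3])]
  obtain ⟨z, z0, hz⟩ := mon_rel h s s
  have n (ρ) := mono_ne (h.val ρ)
  have n' (i) := (map_ne_zero s).2 (n s i)
  simp only [h1, if_false, h2, Equiv.Perm.one_apply, mul_inv_eq_iff_eq_mul₀ (n' _),
    h.sc (s * s) (by simp) (by simp [h2])] at hz
  rw [map_div₀, div_eq_div_iff (n' _) (n _ _)]
  linear_combination s (u s i) * hz j - s (u s j) * hz i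

theorem mon_r5 (h : Mon o p π u d) {r : K ≃ₐ[k] K} (h1 : o r = 1) (h2 : π r = finRotate 3)
    (h3 : u r 0 = u r 1) : r (u r 2 / u r 0) = u r 2 / u r 0 := by
  obtain ⟨z, z0, hz⟩ := mon_rel h r r
  obtain ⟨z', z1, hz'⟩ := mon_rel h r (r * r)
  have n (ρ) := mono_ne (h.val ρ)
  have n' (i) := (map_ne_zero r).2 (n r i)
  simp only [h1, if_true, h2, map_mul, h.sc (r * (r * r)) (by simp [h1])
    (by rw [← h.three r, pow_three, map_mul, map_mul])] at hz hz'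
  have a0 : r (u r 1 * r (u r 0)) = _ := congrArg r (hz 0)
  have a1 : r (u r 2 * r (u r 1)) = _ := congrArg r (hz 1)
  have a2 : u r 2 * _ = _ := hz' 0
  have a3 : u r 0 * _ = _ := hz' 1
  rw [map_mul, map_mul, ← h3] at a0 a1
  rw [map_div₀, div_eq_div_iff (n' _) (n _ _)]
  refine mul_left_cancel₀ ((map_ne_zero r).2 (n' 0)) ?_
  linear_combination u r 0 * a1 - u r 2 * a0 + r z * a3 - r z * a2

theorem mon_r6 (h : Mon o p π u d) {r s : K ≃ₐ[k] K} (h1 : o r = 1) (h2 : π r = finRotate 3)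
    (s1 : o s ≠ 1) (s2 : π s = 1) :
    ∃ ν : K, ∀ j, u s (j + 1) = ν * (u r j * s (u r j) * r (u s j)) := by
  obtain ⟨z, z0, hz⟩ := mon_rel h r s
  obtain ⟨z', z1, hz'⟩ := mon_rel h s r
  obtain ⟨y, y0, hy⟩ := mon_r1 h (r * s) (τ := (r * s)⁻¹ * (s * r)) (by simp [h1]) (by simp [s2])
  have n' (i) := (map_ne_zero s).2 (mono_ne (h.val r) i)
  simp only [h1, s1, if_true, if_false, h2, s2, Equiv.Perm.one_apply, finRotate_apply,
    mul_inv_cancel_left, mul_inv_eq_iff_eq_mul₀ (n' _)] at hz hz' hy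
  refine ⟨z' * y / z, fun j => ?_⟩
  rw [hz', hy, div_mul_eq_mul_div, eq_div_iff z0]
  linear_combination -z' * y * s (u r j) * hz j

/-- **ANFB.** -/
theorem anfb : ANFB := by
  intro k K _ _ _ _ _ _ o p π u d α γ β m hD ⟨s₀, hs₀⟩ hM hN
  have : IsGalois k K := ⟨⟩
  have un : ∀ x : K, x ≠ 0 → (∀ σ : K ≃ₐ[k] K, σ x = x) → ∃ a : kˣ, (up K a : K) = x :=
    fun x h0 h => (fixed_top h).elim fun a e =>
      ⟨Units.mk0 a (by rintro rfl; exact h0 (e.symm.trans (map_zero _))), e⟩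
  obtain ⟨a, ha⟩ := un _ (pow_ne_zero 2 hN.al.1) hN.al.2
  obtain ⟨c, hc⟩ := un _ (pow_ne_zero 2 hN.ga.1) hN.ga.2
  obtain ⟨b, hb⟩ := un _ β.ne_zero hN.be
  obtain rfl : up K b = β := Units.ext hb
  let Φ : AlbL K a b c ≃ₗ[K] J K := LinearEquiv.ofBijective _ (fi_bij ha hc)
  obtain ⟨Ψ, hΨ⟩ : ∃ Ψ : (I → K) ≃ₗ[K] AlbL K a b c, ∀ x, co (fi α γ (Ψ x)) = m.1 *ᵥ x :=
    ⟨((toLin'OfInv m.inv_mul m.mul_inv).trans co.symm).trans Φ.symm, fun x =>
      (congrArg co (Φ.apply_symm_apply _)).trans (co.apply_symm_apply _)⟩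
  have inj : ∀ {x y : AlbL K a b c}, co (fi α γ x) = co (fi α γ y) → x = y := fun e =>
    Φ.injective (co.injective e)
  have n (ρ) := mono_ne (hM.val ρ)
  obtain ⟨s, s1, s2⟩ : ∃ s, o s ≠ 1 ∧ π s = 1 := ⟨s₀ ^ 3, by
    rw [map_pow, (Int.units_eq_one_or _).resolve_left hs₀]; decide, by rw [map_pow, hM.three]⟩
  let g : Fin 3 → Kˣ := fun i => Units.mk0 _ (div_ne_zero (n s i) (n s 0))
  refine ⟨a, b, c, Ψ, s, g, ?_, hM.cmp.cont.imp fun σ _ ⟨_, z, _, e⟩ => Equiv.ext fun j => ?_,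
    hM.three, fun σ h1 h2 => ?_, s1, s2, ?_, fun σ h i => mon_r3 hM s1 s2 h i 0, ?_⟩
  · obtain ⟨ν, h0, h⟩ := hN.sim
    exact ⟨ν, h0, fun x => by rw [← N_fi ha hc, ← cub_co, hΨ, h]⟩
  · by_contra e'
    have := congrFun (congrFun ((hM.val σ).symm.trans e) (π σ j)) j
    rw [Matrix.smul_apply, one_apply_ne (j := j) e', smul_zero] at this
    exact n σ j (by simpa [mono] using this)
  · obtain ⟨t, ht⟩ := nf_in hN h1
    refine ⟨t * (u σ 1 * u σ 2 / u σ 0), fun x => inj ?_⟩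
    rw [hΨ, ht x _ (hΨ x), Q_one (g := 1) (h2 ▸ hM.val σ) (hN.al.2 σ) hN.ga.1 (hN.ga.2 σ)
      fun i => by rw [hM.sc σ h1 h2 i, div_self (n σ 0)]; rfl, ← map_smul, smul_smul]
    congr 3
    ext1 <;> simp [Alb.wt]
  · obtain ⟨t, t0, ht⟩ := nf_out hN s1
    refine ⟨t * (u s 1 * u s 2 / u s 0), mul_ne_zero t0 (div_ne_zero (mul_ne_zero (n _ _) (n _ _))
      (n _ _)), fun x y => ?_⟩
    obtain ⟨z, hz⟩ := Φ.surjective (WW (co.symm (s.symm ∘ ((st o s m * (p s)⁻¹).1 *ᵥ x))))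
    have e1 : co (sg s (WW (fi α γ z))) = (st o s m * (p s)⁻¹).1 *ᵥ x := by
      have := WW_sg (RingHom.id K) (co.symm (s.symm ∘ ((st o s m * (p s)⁻¹).1 *ᵥ x)))
      rw [co_sg, show fi α γ z = _ from hz]
      erw [this]
      rw [co_sg, co.apply_symm_apply]
      exact funext fun i => s.apply_symm_apply _
    have e2 : Ψ x = (t * (u s 1 * u s 2 / u s 0)) • Alb.wt g⁻¹ (amap s z) := inj (by
      rw [hΨ, mul_smul, map_smul, ← Q_one (s2 ▸ hM.val s) (hN.al.2 s) hN.ga.1 (hN.ga.2 s)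
        fun i => by simp [g], ← ht, e1, mulVec_mulVec, ← Units.val_mul]
      congr 2
      group)
    have e3 : Alb.wt g (Ψ x) = (t * (u s 1 * u s 2 / u s 0)) • amap s z := by
      rw [e2, Alb.wt_smul, Alb.wt_wt_inv]
    rw [P011.E6H.her, e3, Alb.tf_smul_left, Alb.tf_amap, ← bf_fi ha hc]
    congr 1
    have e4 := (RingHom.map_dotProduct (s : K →+* K) (co (WW (fi α γ z))) (co (fi α γ (Ψ y))))
    rw [← co_sg, e1, hΨ, RingHom.coe_coe, map_mv] at e4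
    rw [bf, hΨ, e4, Units.val_mul, ← mulVec_mulVec, st_out s1, mulVec_transpose,
      ← dotProduct_mulVec, mulVec_mulVec, ← map_mul', Units.inv_mul, map_one', one_mulVec,
      dotProduct_mulVec, vecMul_transpose]
  · refine hM.cyc.imp_right fun ⟨h0, r, r1, r2, r3⟩ => ⟨h0, r,
      Units.mk0 _ (div_ne_zero (n r 2) (n r 0)), g 1, r1, r2, ?_, ?_,
      fun σ h => mon_r3 hM s1 s2 h 1 0, ?_⟩
    · exact gen_in (fun σ => σ (u r 2 / u r 0) = u r 2 / u r 0)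
        (fun σ τ _ h h' => by rw [AlgEquiv.mul_apply, h', h]) hM.three
        (fun σ h h' => mon_r2 hM r h h' 2 0) (Or.inr ⟨r, r1, r2, mon_r5 hM r1 r2 r3⟩)
    · obtain ⟨t, ht⟩ := nf_in hN r1
      refine ⟨t * u r 0, fun x => inj ?_⟩
      rw [hΨ, ht x _ (hΨ x), Q_rot (r2 ▸ hM.val r) (hN.al.2 r) hN.ga.1 (hN.ga.2 r) r3
        (Units.val_mk0 _), ← map_smul, smul_smul]
    · obtain ⟨ν, hν⟩ := mon_r6 hM r1 r2 s1 s2
      have a0 : u s 1 = _ := hν 0
      have a1 : u s 2 = _ := hν 1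
      have a2 : u s 0 = _ := hν 2
      have n0 := n s 0
      have n1 := (map_ne_zero r).2 n0
      have n2 := n r 0
      have n3 := (map_ne_zero s).2 n2
      rw [← r3] at a1
      simp only [g, Units.val_mk0, map_div₀]
      refine ⟨by rw [div_self n1, mul_one], ?_, ?_⟩ <;> field_simp
      · linear_combination r (u s 0) * a1 - r (u s 1) * a0
      · linear_combination r (u s 0) * u r 0 * s (u r 0) * a2 - u r 2 * s (u r 2) * r (u s 2) * a0

end Vale.Agent.P011LY
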