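import Vale.Agent.P011LX.Base
import Vale.Agent.P011LE.NF
import Vale.Agent.P011.E6.Ids2

/-!
The hermitian matrices over split octonions in the coordinates `Alt₆ + W + W`.
-/

open Matrix
open scoped Kronecker

namespace Vale.Agent.P011LY

open Vale.Agent.P011LE Vale.Agent.P011.D4 Vale.Agent.P011.E6 Vale.Agent.P011.MPQ

variable {K : Type} [Field K] {a b c : Kˣ}

/-- The matrix of a quaternion. -/
def mu (α : K) (q : Qt a b) : Matrix (Fin 2) (Fin 2) K :=
  !![q.re + α * q.imI, b * (q.imJ + α * q.imK); q.imJ - α * q.imK, q.re - α * q.imI]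

/-- The symplectic form. -/
def om : Matrix (Fin 2) (Fin 2) K := !![0, 1; -1, 0]

/-- The blocks of the alternating matrix. -/
def bA (y : J K) (i j : Fin 3) : Matrix (Fin 2) (Fin 2) K := of fun i' j' => y.1.1 (i, i') (j, j')

/-- The blocks of the vectors. -/
def bw (y : J K) (j : Fin 3) : Matrix (Fin 2) (Fin 2) K := of fun e j' => y.2 e (j, j')

theorem blk_ext (π : Equiv.Perm (Fin 3)) {y z : J K}
    (h1 : ∀ i j, bA y (π i) (π j) = bA z (π i) (π j)) (h2 : ∀ i, bw y (π i) = bw z (π i)) :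
    y = z := by
  refine J_ext (Matrix.ext fun i j => ?_) (Matrix.ext fun e j => ?_)
  · simpa [bA] using congrFun (congrFun (h1 (π.symm i.1) (π.symm j.1)) i.2) j.2
  · simpa [bw] using congrFun (congrFun (h2 (π.symm j.1)) e) j.2

theorem mu_add (α : K) (p q : Qt a b) : mu α (p + q) = mu α p + mu α q := by
  ext i j
  fin_cases i <;> fin_cases j <;> simp [mu] <;> ring

theorem mu_smul (α t : K) (q : Qt a b) : mu α (t • q) = t • mu α q := by
  ext i j
  fin_cases i <;> fin_cases j <;> simp [mu] <;> ring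

theorem mat_add (x y : Alb a b c) (i j : Fin 3) : (x + y).mat i j = x.mat i j + y.mat i j := by
  fin_cases i <;> fin_cases j <;> simp [Alb.mat]

theorem mat_smul (t : K) (x : Alb a b c) (i j : Fin 3) : (t • x).mat i j = t • x.mat i j := by
  fin_cases i <;> fin_cases j <;> apply QuaternionAlgebra.ext <;> simp [Alb.mat]

theorem vec_add (x y : Alb a b c) (i : Fin 3) : (x + y).vec i = x.vec i + y.vec i := by
  fin_cases i <;> rfl

theorem vec_smul (t : K) (x : Alb a b c) (i : Fin 3) : (t • x).vec i = t • x.vec i := by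
  fin_cases i <;> rfl

theorem fi_mem (α : K) (x : Alb a b c) :
    (of fun i j : S => (mu α (x.mat i.1 j.1) * om : Matrix _ _ K) i.2 j.2) ∈ Alt K := by
  refine ⟨?_, ?_⟩
  · ext ⟨i, i'⟩ ⟨j, j'⟩
    fin_cases i <;> fin_cases i' <;> fin_cases j <;> fin_cases j' <;>
      simp [mu, om, Alb.mat] <;> ring
  · rintro ⟨i, i'⟩
    fin_cases i <;> fin_cases i' <;> simp [mu, om, Alb.mat]

/-- The change of coordinates. -/
def fi (α γ : K) : Alb a b c →ₗ[K] J K where
  toFun x := jm _ (fi_mem α x) (of fun e j => γ * mu α (x.vec j.1) e j.2)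
  map_add' x y := J_ext (Matrix.ext fun i j => by simp [mat_add, mu_add, add_mul])
    (Matrix.ext fun i j => by simp [vec_add, mu_add, mul_add])
  map_smul' t x := J_ext (Matrix.ext fun i j => by simp [mat_smul, mu_smul])
    (Matrix.ext fun i j => by simp [vec_smul, mu_smul, mul_left_comm])

variable {α γ : K}

theorem bA_fi (x : Alb a b c) (i j : Fin 3) :
    bA (fi α γ x) i j = mu α (x.mat i j) * om := rfl

theorem bw_fi (x : Alb a b c) (j : Fin 3) : bw (fi α γ x) j = γ • mu α (x.vec j) := rfl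

theorem fi_1 (x : Alb a b c) (i j : Fin 3) (i' j' : Fin 2) :
    (fi α γ x).1.1 (i, i') (j, j') = (mu α (x.mat i j) * om : Matrix _ _ K) i' j' := rfl

theorem fi_2 (x : Alb a b c) (j : Fin 3) (e j' : Fin 2) :
    (fi α γ x).2 e (j, j') = γ * mu α (x.vec j) e j' := rfl

theorem N_fi (ha : (a : K) = α ^ 2) (hc : (c : K) = γ ^ 2) (x : Alb a b c) :
    N (fi α γ x) = Alb.cub x := by
  simp only [N, pf, dotProduct, mulVec, sum_S, fi_1, fi_2, mu, om, mul_fin_two]
  simp [Alb.mat, Alb.vec, Alb.cub, Oct.bil_eq, Oct.norm, nrd, ha, hc]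
  ring

theorem mono_ne {n : Type} [Fintype n] [DecidableEq n] {d : GL n K} {π : Equiv.Perm n} {c : n → K}
    (h : d.1 = mono π c) (j : n) : c j ≠ 0 := fun e => by
  have := congrFun (congrFun (d.inv_mul) j) j
  simp [h, mul_apply, mono, e] at this

theorem mono_inv {n : Type} [Fintype n] [DecidableEq n] {d : GL n K} {π : Equiv.Perm n}
    {c : n → K} (h : d.1 = mono π c) : d⁻¹.1 = (mono π fun j => (c j)⁻¹)ᵀ := by
  refine Units.inv_eq_of_mul_eq_one_left (Matrix.ext fun i j => ?_)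
  by_cases e : i = j <;> simp [h, mul_apply, mono, one_apply, e, mono_ne h, eq_comm (a := j)]

variable [CharZero K]

theorem bA_io {d : GL (Fin 3) K} {π : Equiv.Perm (Fin 3)} {c : Fin 3 → K} (hd : d.1 = mono π c)
    (h : GL (Fin 2) K) (h' : Matrix (Fin 2) (Fin 2) K) (l : K) (y : J K) (i j : Fin 3) :
    bA (io (kr d (it h)) h' l y) (π i) (π j) = (l / (c i * c j)) • (h.1 * bA y i j * h.1ᵀ) := by
  have e : (kr d (it h))⁻¹.1 = d⁻¹.1 ⊗ₖ h.1ᵀ := rfl
  ext i' j'
  simp [bA, io_1, e, mono_inv hd, mul_apply, Fintype.sum_prod_type, mono]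
  ring

theorem bw_io {d : GL (Fin 3) K} {π : Equiv.Perm (Fin 3)} {c : Fin 3 → K} (hd : d.1 = mono π c)
    (h : GL (Fin 2) K) (h' : Matrix (Fin 2) (Fin 2) K) (l : K) (y : J K) (i : Fin 3) :
    bw (io (kr d (it h)) h' l y) (π i) = c i • (h' * bw y i * h⁻¹.1) := by
  have e : (kr d (it h)).1 = d.1 ⊗ₖ h⁻¹.1ᵀ := rfl
  ext i' j'
  simp [bw, io_2, e, hd, mul_apply, Fintype.sum_prod_type, mono]
  ring

omit [CharZero K] in
theorem one_mono : (1 : GL (Fin 3) K).1 = mono 1 fun _ => 1 := by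
  ext i j
  by_cases e : i = j <;> simp [mono, one_apply, e]

/-- The polarity. -/
def WW : R K := io (kr 1 (it wq)) (-wq.1) 1

theorem bA_WW (y : J K) (i j : Fin 3) :
    bA (WW y) i j = !![bA y i j 1 1, -bA y i j 1 0; -bA y i j 0 1, bA y i j 0 0] := by
  refine (bA_io one_mono _ _ _ y i j).trans ?_
  ext i' j'
  fin_cases i' <;> fin_cases j' <;> simp [wq, mul_apply, vecMul, dotProduct]

theorem bw_WW (y : J K) (i : Fin 3) :
    bw (WW y) i = !![-bw y i 1 1, bw y i 1 0; bw y i 0 1, -bw y i 0 0] := by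
  refine (bw_io one_mono _ _ _ y i).trans ?_
  ext i' j'
  fin_cases i' <;> fin_cases j' <;> simp [wq, mul_apply, vecMul, dotProduct]

theorem WW_sg (f : K →+* K) (y : J K) : WW (sg f (WW y)) = sg f y := by
  have e1 : ∀ (y : J K) i j, bA (sg f y) i j = (bA y i j).map f := fun _ _ _ => rfl
  have e2 : ∀ (y : J K) i, bw (sg f y) i = (bw y i).map f := fun _ _ => rfl
  refine blk_ext 1 (fun i j => ?_) fun i => ?_
  · ext i' j'
    fin_cases i' <;> fin_cases j' <;> simp [bA_WW, e1]
  · ext i' j'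
    fin_cases i' <;> fin_cases j' <;> simp [bw_WW, e2]

omit [CharZero K] in
theorem bf_blk (y z : J K) : 2 * bf y z = ∑ i, ∑ j, ((bA y i j)ᵀ * bA z i j).trace +
    2 * ∑ i, (bw y i * (bw z i)ᵀ).trace := by
  rw [bf_eq]
  simp only [trace, diag_apply, mul_apply, transpose_apply, Fintype.sum_prod_type, bA, bw,
    of_apply, Fin.sum_univ_three, Fin.sum_univ_two]
  ring

theorem bf_fi (ha : (a : K) = α ^ 2) (hc : (c : K) = γ ^ 2) (x y : Alb a b c) :
    bf (WW (fi α γ x)) (fi α γ y) = Alb.tf x y := by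
  refine mul_left_cancel₀ (two_ne_zero (α := K)) ?_
  rw [bf_blk]
  simp only [bA_WW, bw_WW, bA_fi, bw_fi, mu, om, mul_fin_two, Fin.sum_univ_three]
  simp [Alb.mat, Alb.vec, Alb.tf, Oct.bil_eq, ha, hc, trace, mul_apply, vecMul, dotProduct]
  ring

theorem fi_bij (ha : (a : K) = α ^ 2) (hc : (c : K) = γ ^ 2) :
    Function.Bijective (fi α γ : Alb a b c → J K) := by
  have i : Function.Injective (fi α γ : Alb a b c → J K) :=
    (injective_iff_map_eq_zero _).2 fun x e => Alb.eq_zero_of_tf fun y => by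
      rw [← bf_fi ha hc, e, map_zero, bf, map_zero, zero_dotProduct]
  have := co.symm.finiteDimensional (K := K) (V := I → K)
  have := P011LX.crd.symm.finiteDimensional (K := K) (V₂ := Alb a b c)
  exact ⟨i, (LinearMap.injective_iff_surjective_of_finrank_eq_finrank (by
    rw [co.finrank_eq, P011LX.crd.finrank_eq]; simp)).1 i⟩

end Vale.Agent.P011LY
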